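import Vale.Agent.P155.NT801.MicExp

/-!
# P155, NT, OP1: the micro bound at all scales
-/

namespace Vale.Agent.P155.NT801

open Vale.Agent.P155 Finset SW HT T905 T802 T862 G45 J S743 H904 H12 NT E4 S862 NT905 NT743

/-- `ρ0` is small with respect to `R` -/
theorem rho_small {γ c0 CT : ℝ} (hγ : 0 < γ) (hγ1 : γ ≤ 1) (hc0 : 0 < c0) (hCT : 0 ≤ CT) (K : ℕ) :
    ∃ R0 : ℕ, 1 ≤ R0 ∧ ∀ R N ρ0 : ℕ, R0 ≤ R → 1 ≤ N → N ≤ K * R →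
      ρ0 = ⌈(((K + 1) * N : ℕ) : ℝ) ^ (1 - γ ^ 2 / 1024)⌉₊ →
      CT * ρ0 < c0 * R ∧ (ρ0 : ℝ) + 1 < c0 * R := by
  have h1 := ((tendsto_rpow_atTop (y := γ ^ 2 / 1024) (by positivity)).comp
    tendsto_natCast_atTop_atTop).eventually
      (Filter.eventually_gt_atTop ((CT + 3) * (2 * ((K : ℝ) + 1) ^ 2) / c0))
  obtain ⟨R1, hR1⟩ := Filter.eventually_atTop.1 h1
  refine ⟨max R1 1, le_max_right _ _, fun R N ρ0 hR hN1 hN hρ => ?_⟩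
  have g1 := hR1 R ((le_max_left _ _).trans hR)
  simp only [Function.comp] at g1
  have hR1' : (1 : ℝ) ≤ R := by exact_mod_cast (le_max_right _ _).trans hR
  have hR0 : (0 : ℝ) < R := by linarith
  have hg0 : 0 < γ ^ 2 := by positivity
  have hg1 : γ ^ 2 ≤ 1 := by nlinarith
  have hK0 : (0 : ℝ) ≤ K := Nat.cast_nonneg _
  have hKK : (1 : ℝ) ≤ ((K : ℝ) + 1) ^ 2 := by nlinarith
  have hNK : (((K + 1) * N : ℕ) : ℝ) ≤ ((K : ℝ) + 1) ^ 2 * R := by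
    have h2 : (N : ℝ) ≤ K * R := by exact_mod_cast hN
    push_cast
    calc ((K : ℝ) + 1) * N ≤ ((K : ℝ) + 1) * (K * R) := mul_le_mul_of_nonneg_left h2 (by positivity)
      _ = ((K : ℝ) + 1) * K * R := by ring
      _ ≤ ((K : ℝ) + 1) ^ 2 * R := by
          apply mul_le_mul_of_nonneg_right _ hR0.le
          nlinarith
  have hN1' : (1 : ℝ) ≤ (((K + 1) * N : ℕ) : ℝ) := by
    have : 1 ≤ (K + 1) * N := Nat.mul_pos (by omega) hN1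
    exact_mod_cast this
  have h2 : (1 : ℝ) ≤ (((K + 1) * N : ℕ) : ℝ) ^ (1 - γ ^ 2 / 1024) :=
    Real.one_le_rpow hN1' (by linarith)
  have h3 : (ρ0 : ℝ) ≤ 2 * (((K + 1) * N : ℕ) : ℝ) ^ (1 - γ ^ 2 / 1024) := by
    have := Nat.ceil_lt_add_one (a := (((K + 1) * N : ℕ) : ℝ) ^ (1 - γ ^ 2 / 1024)) (by positivity)
    rw [hρ]
    linarith
  have h4 : (((K + 1) * N : ℕ) : ℝ) ^ (1 - γ ^ 2 / 1024) ≤
      ((K : ℝ) + 1) ^ 2 * (R : ℝ) ^ (1 - γ ^ 2 / 1024) := by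
    calc (((K + 1) * N : ℕ) : ℝ) ^ (1 - γ ^ 2 / 1024) ≤
        (((K : ℝ) + 1) ^ 2 * R) ^ (1 - γ ^ 2 / 1024) :=
          Real.rpow_le_rpow (by positivity) hNK (by linarith)
      _ = (((K : ℝ) + 1) ^ 2) ^ (1 - γ ^ 2 / 1024) * (R : ℝ) ^ (1 - γ ^ 2 / 1024) :=
          Real.mul_rpow (by positivity) (by positivity)
      _ ≤ _ := by
          apply mul_le_mul_of_nonneg_right _ (by positivity)
          calc (((K : ℝ) + 1) ^ 2) ^ (1 - γ ^ 2 / 1024) ≤ (((K : ℝ) + 1) ^ 2) ^ (1 : ℝ) :=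
                Real.rpow_le_rpow_of_exponent_le hKK (by linarith)
            _ = _ := Real.rpow_one _
  have h5 : (ρ0 : ℝ) ≤ 2 * ((K : ℝ) + 1) ^ 2 * (R : ℝ) ^ (1 - γ ^ 2 / 1024) := by linarith
  have h6 : (R : ℝ) ^ (1 - γ ^ 2 / 1024) * (R : ℝ) ^ (γ ^ 2 / 1024) = R := by
    rw [← Real.rpow_add hR0]
    have : 1 - γ ^ 2 / 1024 + γ ^ 2 / 1024 = 1 := by ring
    rw [this, Real.rpow_one]
  have h7 : 0 < (R : ℝ) ^ (1 - γ ^ 2 / 1024) := by positivity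
  have h8 : (CT + 3) * (2 * ((K : ℝ) + 1) ^ 2) < c0 * (R : ℝ) ^ (γ ^ 2 / 1024) := by
    rw [div_lt_iff₀ hc0] at g1
    linarith
  have h9 : (CT + 3) * (2 * ((K : ℝ) + 1) ^ 2 * (R : ℝ) ^ (1 - γ ^ 2 / 1024)) < c0 * R := by
    calc (CT + 3) * (2 * ((K : ℝ) + 1) ^ 2 * (R : ℝ) ^ (1 - γ ^ 2 / 1024)) =
        (CT + 3) * (2 * ((K : ℝ) + 1) ^ 2) * (R : ℝ) ^ (1 - γ ^ 2 / 1024) := by ring
      _ < c0 * (R : ℝ) ^ (γ ^ 2 / 1024) * (R : ℝ) ^ (1 - γ ^ 2 / 1024) :=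
          mul_lt_mul_of_pos_right h8 h7
      _ = c0 * ((R : ℝ) ^ (1 - γ ^ 2 / 1024) * (R : ℝ) ^ (γ ^ 2 / 1024)) := by ring
      _ = c0 * R := by rw [h6]
  have hR1R : (1 : ℝ) ≤ (R : ℝ) ^ (1 - γ ^ 2 / 1024) := Real.one_le_rpow hR1' (by linarith)
  have h10 : (1 : ℝ) ≤ 2 * ((K : ℝ) + 1) ^ 2 * (R : ℝ) ^ (1 - γ ^ 2 / 1024) := by
    nlinarith
  have h11 : CT * ρ0 ≤ CT * (2 * ((K : ℝ) + 1) ^ 2 * (R : ℝ) ^ (1 - γ ^ 2 / 1024)) :=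
    mul_le_mul_of_nonneg_left h5 hCT
  have h12 : 0 ≤ CT * (2 * ((K : ℝ) + 1) ^ 2 * (R : ℝ) ^ (1 - γ ^ 2 / 1024)) := by positivity
  constructor <;> linarith

open Classical in
/-- **MIC at all scales** -/
theorem micG : MicG := by
  obtain ⟨γ, hγ, hγ1, h⟩ := mic_exp
  refine ⟨γ ^ 2 / 4096, by positivity, fun a1 ha1 => ?_⟩
  obtain ⟨am, ham, h⟩ := h a1 ha1
  refine ⟨am, ham, ?_⟩
  intro c0 a β K hc0 ha haam hβ
  obtain ⟨c, hc, C, hC, CT, hCT, R0, hR0, h⟩ := h a β K ha haam hβ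
  obtain ⟨R1, hR1, hρs⟩ := rho_small hγ hγ1 hc0 hCT.le K
  refine ⟨c, hc, C, hC, max R0 R1, ?_⟩
  intro R hR T hfit n N s hn hnN hN hNK hs xS τ S x Vis Reg hS
  obtain ⟨ρ0, hρ⟩ : ∃ ρ0 : ℕ, ρ0 = ⌈(((K + 1) * N : ℕ) : ℝ) ^ (1 - γ ^ 2 / 1024)⌉₊ := ⟨_, rfl⟩
  have hRR0 : R0 ≤ R := (le_max_left _ _).trans hR
  have hRN : 1 ≤ R := hR0.trans hRR0
  have hN1 : 1 ≤ N := by
    have h1 : (1 : ℝ) ≤ n := (Real.one_le_rpow (by exact_mod_cast hRN) ha1.le).trans hn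
    have h2 : 1 ≤ n := by exact_mod_cast h1
    omega
  obtain ⟨z1, z2⟩ := hρs R N ρ0 ((le_max_right _ _).trans hR) hN1 hNK hρ
  refine (h R hRR0 T hfit n N s ρ0 hn hnN hN hNK hs hρ xS τ S x Vis Reg
    (fun ω hω hSω => ?_)).trans ?_
  · obtain ⟨h1, h2, h3, h4, h5⟩ := hS ω hω hSω
    refine ⟨h1, h2, h3, h4, fun y hy => ⟨(h5 y hy).1, ?_⟩⟩
    have h6 := z2.trans_le (h5 y hy).2.1
    have h7 : ((((ρ0 : ℤ) + 1 : ℤ)) : ℝ) < ((|y.1 - xS| : ℤ) : ℝ) := by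
      push_cast at h6 ⊢
      exact h6
    exact_mod_cast h7
  · have h0 : Ex T.V (fun ω => if S ω then
      (∑ y ∈ (oe_finite T (τ.E ω)).toFinset, (if y ∈ Reg ω ∧ (dF T.faceSet y : ℝ) < CT * ρ0 ∧
        ∃ v ∈ Vis ω, dn y v ≤ s ^ 2 then
        |gL T τ.E (fun ω => bump n (x ω)) s ω y| else 0)) else 0) ≤ Ex T.V (fun _ => 0) := by
      refine H12.Ex_mono fun ω hω => ?_
      by_cases hSω : S ω
      · rw [if_pos hSω]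
        obtain ⟨h1, h2, h3, h4, h5⟩ := hS ω hω hSω
        refine le_of_eq (Finset.sum_eq_zero fun y _ => if_neg ?_)
        rintro ⟨hy, hlt, -⟩
        have := (h5 y hy).2.2
        linarith
      · rw [if_neg hSω]
    have h1 : Ex T.V (fun _ => (0 : ℝ)) = 0 := by
      have := H12.Ex_mul (V := T.V) 0 (fun _ => (0 : ℝ))
      simpa using this
    rw [h1] at h0
    linarith

end Vale.Agent.P155.NT801
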