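import Vale.Agent.P155.NT733.OPDef

/-!
# P155, NT, OP1: the micro bound at all scales (exact statement)
-/

namespace Vale.Agent.P155.NT801

open Vale.Agent.P155 Finset T802 T862 NT G45 J NT905 S743 NT743 NT276 NT802

open Classical in
/-- **MIC at all scales**: `n` = scale of the bump at `x` (`n ≤ dF O (x ω) ≤ K n`), `N` = radius of
the region in which layer points are counted (`n ≤ N ≤ n ^ (1 + ε)`), far from the line and from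
the outside of the polygon. -/
def MicG : Prop :=
  ∃ ε : ℝ, 0 < ε ∧ ∀ a1 : ℝ, 0 < a1 → ∃ am : ℝ, 0 < am ∧ ∀ (c0 a β : ℝ) (K : ℕ), 0 < c0 → 0 < a →
  a ≤ am → 0 < β → ∃ c : ℝ, 0 < c ∧ ∃ C : ℝ, 0 ≤ C ∧ ∃ R0 : ℕ, ∀ R : ℕ, R0 ≤ R → ∀ T : Temp,
  Skel.Fits T R → ∀ n N s : ℕ, (R : ℝ) ^ a1 ≤ n → n ≤ N → (N : ℝ) ≤ (n : ℝ) ^ (1 + ε) →
  N ≤ K * R → s = ⌈(R : ℝ) ^ a⌉₊ → ∀ (xS : ℤ) (τ : Stop T.V xS) (S : Conf → Prop) (x : Conf → Pt)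
  (Vis Reg : Conf → Set Pt),
  (∀ ω ∈ DD T.V, S ω → τ.New ω ∧ n ≤ dF (OE T (τ.E ω)) (x ω) ∧
    dF (OE T (τ.E ω)) (x ω) ≤ K * n ∧ (∀ v ∈ Vis ω, v ∈ τ.L ω ∧ v ∉ τ.E ω) ∧
    ∀ y ∈ Reg ω, dn (x ω) y ≤ N ∧ c0 * R ≤ ((|y.1 - xS| : ℤ) : ℝ) ∧ c0 * R ≤ dF T.faceSet y) →
  Ex T.V (fun ω => if S ω then
    (∑ y ∈ (oe_finite T (τ.E ω)).toFinset, (if y ∈ Reg ω ∧ ∃ v ∈ Vis ω, dn y v ≤ s ^ 2 then
      |gL T τ.E (fun ω => bump n (x ω)) s ω y| else 0) +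
      2 * (8 / (s : ℝ)) ^ β * ∑ y ∈ (oe_finite T (τ.E ω)).toFinset,
        |gL T τ.E (fun ω => bump n (x ω)) s ω y|) else 0) ≤ C * (R : ℝ) ^ (-c)

end Vale.Agent.P155.NT801
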