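import Vale.Agent.P155.NT801.MicDef
import Vale.Agent.P155.NT905.DetNT
import Vale.Agent.P155.NT902.Zone

/-!
# P155, NT, OP1: the micro bound, deterministic part

The layer points next to unexplored vertices of the loop which is being explored are next to the
tip, in the zone next to the outside of the polygon, or two-strand points.
-/

namespace Vale.Agent.P155.NT801

open Vale.Agent.P155 Finset SW HT T905 T802 T862 G45 J S743 H904 H12 NT E4 S862 NT905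

variable {xS : ℤ}

/-- two strands next to an unexplored vertex of the loop which is being explored -/
theorem two_of {T : Temp} {τ : Stop T.V xS} {ω : Conf} (hω : ω ∈ DD T.V) (hN : τ.New ω)
    {ρ0 D : ℕ} {x v : Pt} (h1 : (ρ0 : ℤ) + 1 < |x.1 - xS|)
    (h2 : ρ0 < dn x (go ω (xS, τ.t ω) (τ.i ω + 1))) (h3 : ∀ y ∈ box x D, y ∈ T.faceSet)
    (hk : dF (OE T (τ.E ω)) x ≤ D) (hv : v ∈ τ.L ω) (hvE : v ∉ τ.E ω) (hvD : dn x v ≤ D + 1) :
    TwoVisit (fun _ : Fin 1 => box x (D + 1)) (res T.V (box x ρ0) ω) := by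
  have hinv : Inv2 ω := by
    have hω' := Finset.mem_product.1 hω
    exact ⟨(mem_PM.1 hω'.1).invol, (mem_PM.1 hω'.2).invol⟩
  have hline : ∀ y : ℤ, (xS, y) ∉ box x ρ0 := by
    intro y hy
    have := far_line hy h1
    simp at this
  obtain ⟨p, hp, hxp⟩ := H904.exists_dF (exists_notMem (oe_finite T (τ.E ω))) x
  have hpD : p ∈ box x D := by
    rw [mem_box_dn905]; omega
  obtain ⟨v', hv'c, hv'E⟩ : Touch (τ.E ω) p := by
    by_contra hc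
    exact hp ⟨h3 p hpD, hc⟩
  have hv'B : v' ∈ box x (D + 1) := corners_box hv'c hpD
  have hvB : v ∈ box x (D + 1) := mem_box_dn905.2 hvD
  obtain ⟨p', hs', hp'B⟩ : ∃ p', Same ω v' p' ∧ p' ∉ box x ρ0 := by
    rcases hv'E with ⟨y, _, hv⟩ | ⟨j, _, rfl⟩
    · exact ⟨(xS, y), same_symm hinv hv, hline y⟩
    · exact ⟨(xS, τ.t ω), same_symm hinv (go_same ω _ hω j), hline _⟩
  refine two_strands hω (W := Wall ω (τ.E ω)) ?_ (wall_closed ω _) hvE hv'E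
    (same_symm hinv hv) (hline (τ.t ω)) hs' hp'B hvB hv'B
  intro z hz hW
  rcases wall_eti hω hN.1 hW with h | h
  · have := far_line hz h1
    omega
  · rw [mem_box_dn905, h] at hz
    omega

open Classical in
/-- **the micro sum**, off the bad event -/
theorem mic_det {T : Temp} {τ : Stop T.V xS} {ω : Conf} (hω : ω ∈ DD T.V) (hN : τ.New ω)
    {p0 : Pt} {n κ s ρ0 D : ℕ} {C0 Cc γ CT M γ' : ℝ}
    (hbad : ¬ NBad T p0 n κ s ρ0 D C0 Cc γ CT ω)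
    {φ u χ : Pt → ℝ} {q : Pt} (hq : q ∉ OE T (τ.E ω)) (hφ : ∀ y, |φ y| ≤ dens C0 q κ y)
    (hχ : IsCut (OE T (τ.E ω)) s Cc χ) (hu : IsGreen (OE T (τ.E ω)) φ u)
    (hs : 1 ≤ s) (hsD : 2 * s ≤ D) (hDρ : D + 1 ≤ ρ0) (hDC : (D : ℝ) < CT * ρ0)
    (hm : ∀ (z : Pt), ∑ x ∈ box z ρ0, |fL (OE T (τ.E ω)) φ χ u x| ≤ M * ((ρ0 : ℝ) / κ) ^ γ')
    {Vis Reg : Set Pt} (hVis : ∀ v ∈ Vis, v ∈ τ.L ω ∧ v ∉ τ.E ω)
    (hReg : ∀ y ∈ Reg, y ∈ box p0 n ∧ (ρ0 : ℤ) + 1 < |y.1 - xS|) :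
    ∑ y ∈ (oe_finite T (τ.E ω)).toFinset, (if y ∈ Reg ∧ ∃ v ∈ Vis, dn y v ≤ D then
      |fL (OE T (τ.E ω)) φ χ u y| else 0) ≤
      M * ((ρ0 : ℝ) / κ) ^ γ' + CT * (((n : ℝ) / κ) ^ γ * (n : ℝ) ^ (-(γ ^ 2 / 128))) +
      ∑ y ∈ (oe_finite T (τ.E ω)).toFinset, (if y ∈ Reg ∧ (dF T.faceSet y : ℝ) < CT * ρ0 ∧
        ∃ v ∈ Vis, dn y v ≤ D then |fL (OE T (τ.E ω)) φ χ u y| else 0) := by
  have hO := oe_finite T (τ.E ω)
  have hCP := Stop.cpr (τ := τ) hω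
  set g : Pt → ℝ := fun x => |fL (OE T (τ.E ω)) φ χ u x| with hg
  have hg0 : ∀ x, 0 ≤ g x := fun x => abs_nonneg _
  have hpt : ∀ y ∈ hO.toFinset, (if y ∈ Reg ∧ ∃ v ∈ Vis, dn y v ≤ D then g y else 0) ≤
      (if y ∈ box (go ω (xS, τ.t ω) (τ.i ω + 1)) ρ0 then g y else 0) +
      (if y ∈ box p0 n ∧ CT * ρ0 ≤ (dF T.faceSet y : ℝ) ∧
          TwoVisit (fun _ : Fin 1 => box y (D + 1)) (res T.V (box y ρ0) ω) then g y else 0) +
      (if y ∈ Reg ∧ (dF T.faceSet y : ℝ) < CT * ρ0 ∧ ∃ v ∈ Vis, dn y v ≤ D then g y else 0) := by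
    intro y _
    have hgy := hg0 y
    have n1 : 0 ≤ (if y ∈ box (go ω (xS, τ.t ω) (τ.i ω + 1)) ρ0 then g y else 0) := by
      split_ifs <;> [exact hgy; exact le_rfl]
    have n2 : 0 ≤ (if y ∈ box p0 n ∧ CT * ρ0 ≤ (dF T.faceSet y : ℝ) ∧
        TwoVisit (fun _ : Fin 1 => box y (D + 1)) (res T.V (box y ρ0) ω) then g y else 0) := by
      split_ifs <;> [exact hgy; exact le_rfl]
    have n3 : 0 ≤ (if y ∈ Reg ∧ (dF T.faceSet y : ℝ) < CT * ρ0 ∧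
        ∃ v ∈ Vis, dn y v ≤ D then g y else 0) := by
      split_ifs <;> [exact hgy; exact le_rfl]
    by_cases hA : y ∈ Reg ∧ ∃ v ∈ Vis, dn y v ≤ D
    swap
    · rw [if_neg hA]
      linarith
    rw [if_pos hA]
    obtain ⟨hR, v, hv, hyv⟩ := hA
    obtain ⟨hb, hl⟩ := hReg y hR
    by_cases htip : y ∈ box (go ω (xS, τ.t ω) (τ.i ω + 1)) ρ0
    · have e : (if y ∈ box (go ω (xS, τ.t ω) (τ.i ω + 1)) ρ0 then g y else 0) = g y := if_pos htip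
      rw [e]
      linarith
    by_cases hz : (dF T.faceSet y : ℝ) < CT * ρ0
    · have e : (if y ∈ Reg ∧ (dF T.faceSet y : ℝ) < CT * ρ0 ∧
        ∃ v ∈ Vis, dn y v ≤ D then g y else 0) = g y := if_pos ⟨hR, hz, v, hv, hyv⟩
      rw [e]
      linarith
    by_cases hf0 : fL (OE T (τ.E ω)) φ χ u y = 0
    · have e : g y = 0 := by rw [hg]; simp only [hf0, abs_zero]
      rw [e] at n1 n2 n3 ⊢
      linarith
    obtain ⟨-, hdF⟩ := fL_supp (exists_notMem hO) hs hχ hu hf0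
    have hz' : CT * ρ0 ≤ (dF T.faceSet y : ℝ) := not_lt.1 hz
    have hDf : D < dF T.faceSet y := by
      have : (D : ℝ) < dF T.faceSet y := lt_of_lt_of_le hDC hz'
      exact_mod_cast this
    have htv := two_of hω hN (D := D) (ρ0 := ρ0) (x := y) (v := v) hl (by
      rw [mem_box_dn905, H904.dn_comm] at htip
      omega) (face_of_dF hDf) (by omega) (hVis v hv).1 (hVis v hv).2 (by omega)
    have e : (if y ∈ box p0 n ∧ CT * ρ0 ≤ (dF T.faceSet y : ℝ) ∧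
        TwoVisit (fun _ : Fin 1 => box y (D + 1)) (res T.V (box y ρ0) ω) then g y else 0) = g y :=
      if_pos ⟨hb, hz', htv⟩
    rw [e]
    linarith
  refine (Finset.sum_le_sum hpt).trans ?_
  rw [Finset.sum_add_distrib, Finset.sum_add_distrib]
  have htip : ∑ x ∈ hO.toFinset, (if x ∈ box (go ω (xS, τ.t ω) (τ.i ω + 1)) ρ0 then g x else 0) ≤
      M * ((ρ0 : ℝ) / κ) ^ γ' := by
    rw [← Finset.sum_filter]
    refine le_trans (sum_le_sum_of_subset_of_nonneg ?_ fun x _ _ => hg0 x)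
      (hm (go ω (xS, τ.t ω) (τ.i ω + 1)))
    intro x hx
    exact (mem_filter.1 hx).2
  have htw : ∑ x ∈ hO.toFinset, (if x ∈ box p0 n ∧ CT * ρ0 ≤ (dF T.faceSet x : ℝ) ∧
        TwoVisit (fun _ : Fin 1 => box x (D + 1)) (res T.V (box x ρ0) ω) then g x else 0) ≤
      CT * (((n : ℝ) / κ) ^ γ * (n : ℝ) ^ (-(γ ^ 2 / 128))) := by
    have h1 : ∑ x ∈ hO.toFinset, (if x ∈ box p0 n ∧ CT * ρ0 ≤ (dF T.faceSet x : ℝ) ∧
        TwoVisit (fun _ : Fin 1 => box x (D + 1)) (res T.V (box x ρ0) ω) then g x else 0) ≤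
        ∑ x ∈ (box p0 n).filter (fun x => CT * ρ0 ≤ (dF T.faceSet x : ℝ) ∧
          TwoVisit (fun _ : Fin 1 => box x (D + 1)) (res T.V (box x ρ0) ω)), g x :=
      sum_ite_le905 hg0 fun x _ h => ⟨h.1, h.2⟩
    by_contra hc
    exact hbad ⟨OE T (τ.E ω), q, φ, u, χ, hO, hCP, hq, hχ, hφ, hu,
      lt_of_lt_of_le (not_le.1 hc) h1⟩
  linarith

end Vale.Agent.P155.NT801
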