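import Mathlib

/-!
# P155, NT, OP1: the micro bound, scales
-/

namespace Vale.Agent.P155.NT801

/-- the size of the layer scale `s` -/
theorem sc_s {γ a1 a x : ℝ} (hγ : 0 < γ) (ha1 : 0 < a1) (ha : 0 < a)
    (haa : a ≤ a1 * γ / 4096) (hγ1 : γ ≤ 1) (hx : 1 ≤ x) (e1 : 8 ≤ x ^ a)
    (e2 : 5 ≤ x ^ (a1 * γ / 2048)) (e4 : 16 ≤ x ^ (a1 / 2)) {s : ℕ} (hs : s = ⌈x ^ a⌉₊) :
    8 ≤ s ∧ ((s ^ 2 : ℕ) : ℝ) + 1 ≤ x ^ (a1 * γ / 1024) ∧ (8 : ℝ) * s ≤ x ^ a1 := by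
  have hx0 : 0 < x := by linarith
  have hs8 : (8 : ℝ) ≤ s := by
    rw [hs]; exact e1.trans (Nat.le_ceil _)
  have hs2 : (s : ℝ) ≤ 2 * x ^ a := by
    have := Nat.ceil_lt_add_one (a := x ^ a) (by positivity)
    rw [hs]
    linarith
  have ha2 : x ^ a ≤ x ^ (a1 * γ / 4096) := Real.rpow_le_rpow_of_exponent_le hx haa
  have ha3 : x ^ (a1 * γ / 4096) * x ^ (a1 * γ / 4096) = x ^ (a1 * γ / 2048) := by
    rw [← Real.rpow_add hx0]; congr 1; ring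
  have ha4 : x ^ (a1 * γ / 2048) * x ^ (a1 * γ / 2048) = x ^ (a1 * γ / 1024) := by
    rw [← Real.rpow_add hx0]; congr 1; ring
  refine ⟨by exact_mod_cast hs8, ?_, ?_⟩
  · push_cast
    have h1 : (s : ℝ) ^ 2 ≤ (2 * x ^ (a1 * γ / 4096)) ^ 2 :=
      pow_le_pow_left₀ (by positivity) (by linarith) 2
    have h2 : (2 * x ^ (a1 * γ / 4096)) ^ 2 = 4 * x ^ (a1 * γ / 2048) := by
      rw [← ha3]; ring
    have h4 : 5 * x ^ (a1 * γ / 2048) ≤ x ^ (a1 * γ / 2048) * x ^ (a1 * γ / 2048) :=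
      mul_le_mul_of_nonneg_right e2 (by positivity)
    rw [← ha4]
    linarith
  · have h2 : x ^ a ≤ x ^ (a1 / 2) :=
      Real.rpow_le_rpow_of_exponent_le hx (by
        have : a1 * γ ≤ a1 * 1 := mul_le_mul_of_nonneg_left hγ1 ha1.le
        linarith)
    have h3 : x ^ (a1 / 2) * x ^ (a1 / 2) = x ^ a1 := by
      rw [← Real.rpow_add hx0]; congr 1; ring
    have h4 : 16 * x ^ (a1 / 2) ≤ x ^ (a1 / 2) * x ^ (a1 / 2) :=
      mul_le_mul_of_nonneg_right e4 (by positivity)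
    rw [← h3]
    linarith

/-- the size of `ρ0` -/
theorem sc_rho {γ : ℝ} (hγ : 0 < γ) (hγ1 : γ ≤ 1) {n N k y : ℝ} (hn : 1 ≤ n) (hnN : n ≤ N)
    (hN : N ≤ n ^ (1 + γ ^ 2 / 4096)) (hk : 1 ≤ k) (hy0 : 0 < y) (hy : y ≤ n) {ρ0 : ℕ}
    (hρ : ρ0 = ⌈(k * N) ^ (1 - γ ^ 2 / 1024)⌉₊) :
    (k * N) ^ (γ / 512) ≤ ρ0 ∧ (ρ0 : ℝ) / (k * n) ≤ 2 * y ^ (-(γ ^ 2 / 2048)) := by
  have hg0 : 0 < γ ^ 2 := by positivity
  have hg1 : γ ^ 2 ≤ 1 := by nlinarith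
  have hn0 : 0 < n := by linarith
  have hN0 : 0 < N := by linarith
  have hk0 : 0 < k := by linarith
  have hN'1 : 1 ≤ k * N := by
    calc (1 : ℝ) = 1 * 1 := by norm_num
      _ ≤ k * N := mul_le_mul hk (hn.trans hnN) (by norm_num) hk0.le
  have hρ1 : (k * N) ^ (1 - γ ^ 2 / 1024) ≤ ρ0 := by rw [hρ]; exact Nat.le_ceil _
  have hρ2 : (ρ0 : ℝ) ≤ 2 * (k * N) ^ (1 - γ ^ 2 / 1024) := by
    have h1 := Nat.ceil_lt_add_one (a := (k * N) ^ (1 - γ ^ 2 / 1024)) (by positivity)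
    have h2 : 1 ≤ (k * N) ^ (1 - γ ^ 2 / 1024) := Real.one_le_rpow hN'1 (by linarith)
    rw [hρ]
    linarith
  refine ⟨(Real.rpow_le_rpow_of_exponent_le hN'1 (by linarith)).trans hρ1, ?_⟩
  have hNn : (k * N) ^ (1 - γ ^ 2 / 1024) ≤ k * n ^ (1 - γ ^ 2 / 2048) := by
    rw [Real.mul_rpow (by positivity) (by positivity)]
    refine mul_le_mul ?_ ?_ (by positivity) (by positivity)
    · calc k ^ (1 - γ ^ 2 / 1024) ≤ k ^ (1 : ℝ) :=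
          Real.rpow_le_rpow_of_exponent_le hk (by linarith)
        _ = _ := Real.rpow_one _
    · calc N ^ (1 - γ ^ 2 / 1024) ≤ (n ^ (1 + γ ^ 2 / 4096)) ^ (1 - γ ^ 2 / 1024) :=
          Real.rpow_le_rpow (by positivity) hN (by linarith)
        _ = n ^ ((1 + γ ^ 2 / 4096) * (1 - γ ^ 2 / 1024)) := (Real.rpow_mul hn0.le _ _).symm
        _ ≤ _ := Real.rpow_le_rpow_of_exponent_le hn (by
            have : 0 ≤ γ ^ 2 * γ ^ 2 := by positivity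
            linarith)
  have hnpow : n ^ (1 - γ ^ 2 / 2048) = n * n ^ (-(γ ^ 2 / 2048)) := by
    rw [sub_eq_add_neg, Real.rpow_add hn0, Real.rpow_one]
  have hneg : n ^ (-(γ ^ 2 / 2048)) ≤ y ^ (-(γ ^ 2 / 2048)) :=
    Real.rpow_le_rpow_of_nonpos hy0 hy (by linarith)
  rw [div_le_iff₀ (by positivity)]
  calc (ρ0 : ℝ) ≤ 2 * (k * (n * n ^ (-(γ ^ 2 / 2048)))) := by
        rw [← hnpow]
        linarith
    _ ≤ 2 * (k * (n * y ^ (-(γ ^ 2 / 2048)))) := by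
        gcongr
    _ = _ := by ring

/-- the size of the two-strand error -/
theorem sc_two {γ : ℝ} (hγ : 0 < γ) (hγ1 : γ ≤ 1) {n N k y : ℝ} (hn : 1 ≤ n) (hnN : n ≤ N)
    (hN : N ≤ n ^ (1 + γ ^ 2 / 4096)) (hk : 1 ≤ k) (hy0 : 0 < y) (hy : y ≤ n) :
    (k * N / (k * n)) ^ γ * (k * N) ^ (-(γ ^ 2 / 128)) ≤ y ^ (-(γ ^ 2 / 256)) := by
  have hg0 : 0 < γ ^ 2 := by positivity
  have hn0 : 0 < n := by linarith
  have hN0 : 0 < N := by linarith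
  have hk0 : 0 < k := by linarith
  have hnN'' : n ≤ k * N := by
    calc n ≤ N := hnN
      _ = 1 * N := (one_mul _).symm
      _ ≤ k * N := mul_le_mul_of_nonneg_right hk hN0.le
  have h1 : k * N / (k * n) = N / n := by
    field_simp
  have h2 : N / n ≤ n ^ (γ ^ 2 / 4096) := by
    rw [div_le_iff₀ hn0]
    calc N ≤ n ^ (1 + γ ^ 2 / 4096) := hN
      _ = _ := by rw [Real.rpow_add hn0, Real.rpow_one]; ring
  have h3 : (N / n) ^ γ ≤ n ^ (γ ^ 2 / 4096) := by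
    calc (N / n) ^ γ ≤ (N / n) ^ (1 : ℝ) := by
          apply Real.rpow_le_rpow_of_exponent_le _ hγ1
          rw [le_div_iff₀ hn0, one_mul]
          exact hnN
      _ = N / n := Real.rpow_one _
      _ ≤ _ := h2
  have h4 : (k * N) ^ (-(γ ^ 2 / 128)) ≤ n ^ (-(γ ^ 2 / 128)) :=
    Real.rpow_le_rpow_of_nonpos hn0 hnN'' (by linarith)
  rw [h1]
  calc (N / n) ^ γ * (k * N) ^ (-(γ ^ 2 / 128)) ≤ n ^ (γ ^ 2 / 4096) * n ^ (-(γ ^ 2 / 128)) :=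
        mul_le_mul h3 h4 (by positivity) (by positivity)
    _ = n ^ (γ ^ 2 / 4096 + -(γ ^ 2 / 128)) := (Real.rpow_add hn0 _ _).symm
    _ ≤ n ^ (-(γ ^ 2 / 256)) := Real.rpow_le_rpow_of_exponent_le hn (by linarith)
    _ ≤ y ^ (-(γ ^ 2 / 256)) := Real.rpow_le_rpow_of_nonpos hy0 hy (by linarith)

theorem mic_scales {γ a1 a : ℝ} (hγ : 0 < γ) (hγ1 : γ ≤ 1) (ha1 : 0 < a1) (ha : 0 < a)
    (haa : a ≤ a1 * γ / 4096) (K : ℕ) :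
    ∃ R0 : ℕ, 1 ≤ R0 ∧ ∀ R n N s ρ0 : ℕ, R0 ≤ R → (R : ℝ) ^ a1 ≤ n → n ≤ N →
      (N : ℝ) ≤ (n : ℝ) ^ (1 + γ ^ 2 / 4096) → s = ⌈(R : ℝ) ^ a⌉₊ →
      ρ0 = ⌈(((K + 1) * N : ℕ) : ℝ) ^ (1 - γ ^ 2 / 1024)⌉₊ →
      1 ≤ n ∧ 8 ≤ s ∧ 8 * s ≤ (K + 1) * n ∧
      (((K + 1) * (K + 1) * R : ℕ) : ℝ) ^ (a1 / 2) ≤ (((K + 1) * N : ℕ) : ℝ) ∧
      (s : ℝ) ≤ (((K + 1) * N : ℕ) : ℝ) ^ (γ / 512) ∧
      ((s ^ 2 : ℕ) : ℝ) + 1 ≤ (((K + 1) * N : ℕ) : ℝ) ^ (γ / 512) ∧ s ^ 2 + 1 ≤ ρ0 ∧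
      ρ0 ≤ (K + 1) * n ∧
      (ρ0 : ℝ) / (((K + 1) * n : ℕ) : ℝ) ≤ 2 * (R : ℝ) ^ (-(a1 * γ ^ 2 / 2048)) ∧
      ((((K + 1) * N : ℕ) : ℝ) / (((K + 1) * n : ℕ) : ℝ)) ^ γ *
        (((K + 1) * N : ℕ) : ℝ) ^ (-(γ ^ 2 / 128)) ≤ (R : ℝ) ^ (-(a1 * γ ^ 2 / 256)) := by
  have ev : ∀ (b : ℝ) (D : ℝ), 0 < b → ∀ᶠ R : ℕ in Filter.atTop, D ≤ (R : ℝ) ^ b := by
    intro b D hb
    exact ((tendsto_rpow_atTop hb).comp tendsto_natCast_atTop_atTop).eventually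
      (Filter.eventually_ge_atTop D)
  obtain ⟨R1, hR1⟩ := Filter.eventually_atTop.1 ((ev a 8 ha).and
    ((ev (a1 * γ / 2048) 5 (by positivity)).and
    ((ev (a1 / 2) ((((K + 1) * (K + 1) : ℕ) : ℝ) ^ (a1 / 2)) (by positivity)).and
    ((ev (a1 / 2) 16 (by positivity)).and (ev (a1 * γ ^ 2 / 2048) 2 (by positivity))))))
  refine ⟨max R1 1, le_max_right _ _, ?_⟩
  intro R n N s ρ0 hR hn hnN hN hs hρ
  obtain ⟨e1, e2, e3, e4, e5⟩ := hR1 R ((le_max_left _ _).trans hR)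
  have hR1' : (1 : ℝ) ≤ R := by exact_mod_cast (le_max_right _ _).trans hR
  have hR0 : (0 : ℝ) < R := by linarith
  have hRa1 : (1 : ℝ) ≤ (R : ℝ) ^ a1 := Real.one_le_rpow hR1' ha1.le
  have hn1 : (1 : ℝ) ≤ n := hRa1.trans hn
  have hnN' : (n : ℝ) ≤ N := by exact_mod_cast hnN
  have hK1 : (1 : ℝ) ≤ (K : ℝ) + 1 := by
    have : (0 : ℝ) ≤ K := Nat.cast_nonneg _
    linarith
  have eN : (((K + 1) * N : ℕ) : ℝ) = ((K : ℝ) + 1) * N := by push_cast; ring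
  have en : (((K + 1) * n : ℕ) : ℝ) = ((K : ℝ) + 1) * n := by push_cast; ring
  have hN0 : (0 : ℝ) < N := by linarith
  have hnN'' : (n : ℝ) ≤ (((K + 1) * N : ℕ) : ℝ) := by
    rw [eN]
    calc (n : ℝ) ≤ 1 * N := by rw [one_mul]; exact hnN'
      _ ≤ _ := mul_le_mul_of_nonneg_right hK1 hN0.le
  have hn1' : 1 ≤ n := by exact_mod_cast hn1
  obtain ⟨s1, s2, s3⟩ := sc_s hγ ha1 ha haa hγ1 hR1' e1 e2 e4 hs
  rw [eN] at hρ
  obtain ⟨r1, r2⟩ := sc_rho hγ hγ1 hn1 hnN' hN hK1 (by positivity : 0 < (R : ℝ) ^ a1) hn hρ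
  have t1 := sc_two hγ hγ1 hn1 hnN' hN hK1 (by positivity : 0 < (R : ℝ) ^ a1) hn
  rw [← eN, ← en, ← Real.rpow_mul hR0.le] at t1
  rw [← en, ← Real.rpow_mul hR0.le] at r2
  rw [← eN] at r1
  have x1 : a1 * -(γ ^ 2 / 2048) = -(a1 * γ ^ 2 / 2048) := by ring
  have x2 : a1 * -(γ ^ 2 / 256) = -(a1 * γ ^ 2 / 256) := by ring
  rw [x1] at r2
  rw [x2] at t1
  have hNγ : (R : ℝ) ^ (a1 * γ / 1024) ≤ (((K + 1) * N : ℕ) : ℝ) ^ (γ / 512) := by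
    calc (R : ℝ) ^ (a1 * γ / 1024) ≤ (R : ℝ) ^ (a1 * (γ / 512)) :=
          Real.rpow_le_rpow_of_exponent_le hR1' (by
            have : 0 < a1 * γ := by positivity
            linarith)
      _ = ((R : ℝ) ^ a1) ^ (γ / 512) := Real.rpow_mul hR0.le _ _
      _ ≤ _ := Real.rpow_le_rpow (by positivity) (hn.trans hnN'') (by positivity)
  have hs3 : (s : ℝ) ≤ ((s ^ 2 : ℕ) : ℝ) + 1 := by
    have h8 : s ≤ s ^ 2 + 1 := by nlinarith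
    exact_mod_cast h8
  refine ⟨hn1', s1, ?_, ?_, hs3.trans (s2.trans hNγ), s2.trans hNγ, ?_, ?_, r2, t1⟩
  · have h5 : 8 * s ≤ n := by
      have := s3.trans hn
      exact_mod_cast this
    calc 8 * s ≤ n := h5
      _ = 1 * n := (one_mul _).symm
      _ ≤ (K + 1) * n := Nat.mul_le_mul_right _ (by omega)
  · have e : (((K + 1) * (K + 1) * R : ℕ) : ℝ) = (((K + 1) * (K + 1) : ℕ) : ℝ) * R := by
      push_cast; ring
    rw [e, Real.mul_rpow (by positivity) (by positivity)]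
    have h3 : (R : ℝ) ^ (a1 / 2) * (R : ℝ) ^ (a1 / 2) = (R : ℝ) ^ a1 := by
      rw [← Real.rpow_add hR0]; congr 1; ring
    calc _ ≤ (R : ℝ) ^ (a1 / 2) * (R : ℝ) ^ (a1 / 2) :=
          mul_le_mul_of_nonneg_right e3 (by positivity)
      _ ≤ n := by rw [h3]; exact hn
      _ ≤ _ := hnN''
  · have h1 : ((s ^ 2 + 1 : ℕ) : ℝ) ≤ ρ0 := by
      have := s2.trans (hNγ.trans r1)
      push_cast at this ⊢
      exact this
    exact_mod_cast h1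
  · have hsmall : 2 * (R : ℝ) ^ (-(a1 * γ ^ 2 / 2048)) ≤ 1 := by
      rw [Real.rpow_neg hR0.le]
      have h0 : 0 < (R : ℝ) ^ (a1 * γ ^ 2 / 2048) := by positivity
      rw [← div_eq_mul_inv, div_le_one h0]
      exact e5
    have h1 : (ρ0 : ℝ) / (((K + 1) * n : ℕ) : ℝ) ≤ 1 := r2.trans hsmall
    have h2 : (0 : ℝ) < (((K + 1) * n : ℕ) : ℝ) := by
      rw [en]
      have : (0 : ℝ) < n := by linarith
      positivity
    rw [div_le_one h2] at h1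
    exact_mod_cast h1

end Vale.Agent.P155.NT801
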