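import Vale.Agent.P155.NT801.MicDet
import Vale.Agent.P155.NT801.MicSc

/-!
# P155, NT, OP1: the micro bound, expectation
-/

namespace Vale.Agent.P155.NT801

open Vale.Agent.P155 Finset SW HT T905 T802 T862 G45 J S743 H904 H12 NT E4 S862 NT905 NT743

theorem nbad_mono {T : Temp} {p0 : Pt} {n κ s ρ0 D : ℕ} {C0 Cc γ CT C : ℝ} (h : CT ≤ C)
    {ω : Conf} (h0 : NBad T p0 n κ s ρ0 D C0 Cc γ C ω) : NBad T p0 n κ s ρ0 D C0 Cc γ CT ω := by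
  classical
  have hpos : 0 ≤ ((n : ℝ) / κ) ^ γ * (n : ℝ) ^ (-(γ ^ 2 / 128)) := by positivity
  obtain ⟨O, q, φ, v, χ, h1, h2, h3, h4, h5, h6, h7⟩ := h0
  refine ⟨O, q, φ, v, χ, h1, h2, h3, h4, h5, h6, ?_⟩
  refine lt_of_le_of_lt (mul_le_mul_of_nonneg_right h hpos) (lt_of_lt_of_le h7 ?_)
  apply sum_le_sum_of_subset_of_nonneg
  · intro x hx
    rw [mem_filter] at hx ⊢
    refine ⟨hx.1, le_trans ?_ hx.2.1, hx.2.2⟩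
    exact mul_le_mul_of_nonneg_right h (Nat.cast_nonneg _)
  · intro x _ _
    exact abs_nonneg _

/-- the bad event, all centres -/
def MBad (T : Temp) (R n κ s ρ0 D : ℕ) (C0 Cc γ CT : ℝ) (ω : Conf) : Prop :=
  ∃ p0 ∈ box (0, 0) R, NBad T p0 n κ s ρ0 D C0 Cc γ CT ω

theorem card_box_le {R : ℕ} (hR : 1 ≤ R) : ((box (0, 0) R).card : ℝ) ≤ 9 * (R : ℝ) ^ 2 := by
  have h1 : (box (0, 0) R).card = (2 * R + 1) ^ 2 := G45.card_box _ _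
  rw [h1]
  have h2 : (1 : ℝ) ≤ R := by exact_mod_cast hR
  push_cast
  nlinarith

/-- probability of the bad event -/
theorem mbad_pr {T : Temp} {R n κ s ρ0 D : ℕ} {C0 Cc γ CT b : ℝ} (hR : 1 ≤ R) (hb : 0 ≤ b)
    (h : ∀ p0, Pr T.V (NBad T p0 n κ s ρ0 D C0 Cc γ CT) ≤ b) :
    Pr T.V (MBad T R n κ s ρ0 D C0 Cc γ CT) ≤ 9 * (R : ℝ) ^ 2 * b := by
  refine (E.Pr_exists_le_card T.V (box (0, 0) R)
    (fun p0 ω => NBad T p0 n κ s ρ0 D C0 Cc γ CT ω) (fun p0 _ => h p0)).trans ?_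
  exact mul_le_mul_of_nonneg_right (card_box_le hR) hb

open Classical in
/-- expectation of a pointwise bound -/
theorem Ex_three {V : Finset Pt} {F Z : Conf → ℝ} {B : Conf → Prop} {A M : ℝ} (hA : 0 ≤ A)
    (h : ∀ ω ∈ DD V, F ω ≤ A + ((if B ω then M else 0) + Z ω)) :
    Ex V F ≤ A + M * Pr V B + Ex V Z := by
  refine (H12.Ex_mono h).trans ((Ex_const_add hA _).trans ?_)
  rw [H12.Ex_add]
  have e : Ex V (fun ω => if B ω then M else 0) = M * Pr V B := by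
    rw [E.Pr_eq_avg, ← Ex_eq_avg (V := V) (g := fun ω => if B ω then (1 : ℝ) else 0),
      ← H12.Ex_mul]
    congr 1
    funext ω
    split_ifs <;> ring
  rw [e]
  linarith

open Classical in
/-- **the micro sum at one configuration** -/
theorem mic_pt {T : Temp} {xS : ℤ} {τ : Stop T.V xS} {ω : Conf} (hω : ω ∈ DD T.V)
    {R K n κ N s ρ0 : ℕ} {C0 γ γ' M CT β : ℝ} (hfit : Skel.Fits T R) (hn5 : 5 ≤ n)
    (hκ : κ = (K + 1) * n) (hM : 0 ≤ M) (hC0 : C0 = 16000000 * ((K : ℝ) + 1) ^ 2)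
    (hmass : ∀ (O : Set Pt) (p : Pt) (χ φ u : Pt → ℝ), O.Finite → CPr O → p ∉ O →
      IsCut O s (32 ^ 4) χ → (∀ y, |φ y| ≤ dens C0 p κ y) → IsGreen O φ u →
      (∀ S : Finset Pt, ∑ x ∈ S, |fL O φ χ u x| ≤ M) ∧
      (∀ z : Pt, ∑ x ∈ box z ρ0, |fL O φ χ u x| ≤ M * ((ρ0 : ℝ) / κ) ^ γ'))
    (hCT : 1 ≤ CT) (hs : 8 ≤ s) (hsρ : s ^ 2 + 1 ≤ ρ0) (hNew : τ.New ω) {x : Pt}
    (hd1 : n ≤ dF (OE T (τ.E ω)) x) (hd2 : dF (OE T (τ.E ω)) x ≤ K * n) {Vis Reg : Set Pt}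
    (hVis : ∀ v ∈ Vis, v ∈ τ.L ω ∧ v ∉ τ.E ω)
    (hReg : ∀ y ∈ Reg, dn x y ≤ N ∧ (ρ0 : ℤ) + 1 < |y.1 - xS|) :
    ∑ y ∈ (oe_finite T (τ.E ω)).toFinset, (if y ∈ Reg ∧ ∃ v ∈ Vis, dn y v ≤ s ^ 2 then
      |fL (OE T (τ.E ω)) (bump n x) (cutf (OE T (τ.E ω)) s)
        (pot (OE T (τ.E ω)) (bump n x)) y| else 0) +
      2 * (8 / (s : ℝ)) ^ β * ∑ y ∈ (oe_finite T (τ.E ω)).toFinset,
        |fL (OE T (τ.E ω)) (bump n x) (cutf (OE T (τ.E ω)) s)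
          (pot (OE T (τ.E ω)) (bump n x)) y| ≤
      (2 * (8 / (s : ℝ)) ^ β * M + M * ((ρ0 : ℝ) / κ) ^ γ' +
        CT * (((N : ℝ) / κ) ^ γ * (N : ℝ) ^ (-(γ ^ 2 / 128)))) +
      ((if MBad T R N κ s ρ0 (s ^ 2) C0 (32 ^ 4) γ CT ω then M else 0) +
        ∑ y ∈ (oe_finite T (τ.E ω)).toFinset, (if y ∈ Reg ∧
          (dF T.faceSet y : ℝ) < CT * ρ0 ∧ ∃ v ∈ Vis, dn y v ≤ s ^ 2 then
          |fL (OE T (τ.E ω)) (bump n x) (cutf (OE T (τ.E ω)) s)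
            (pot (OE T (τ.E ω)) (bump n x)) y| else 0)) := by
  have hO := oe_finite T (τ.E ω)
  have hCP := Stop.cpr (τ := τ) hω
  obtain ⟨q, hq, hxq⟩ := H904.exists_dF (exists_notMem hO) x
  have hxO : x ∈ OE T (τ.E ω) := by
    by_contra hc
    have := H904.dF_le (x := x) hc
    have h0 : dn x x ≤ 0 := (H904.dn_le_iff).2 (by simp)
    omega
  have hxR : x ∈ box (0, 0) R := hfit hxO.1
  have hφ : ∀ y, |bump n x y| ≤ dens C0 q κ y := by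
    intro y
    rw [hC0, hκ]
    exact NT902.bump_dens (by norm_num) (by omega) (by rw [H904.dn_comm]; omega)
      (bump_isBump hn5 x) y
  have hχ := cutf_isCut (O := OE T (τ.E ω)) (exists_notMem hO) (s := s) (by omega)
    (le_refl ((32 : ℝ) ^ 4))
  have hu := pot_spec hO (bump n x)
  obtain ⟨m1, m2⟩ := hmass (OE T (τ.E ω)) q (cutf (OE T (τ.E ω)) s) (bump n x)
    (pot (OE T (τ.E ω)) (bump n x)) hO hCP hq hχ hφ hu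
  obtain ⟨g, hg⟩ : ∃ g : Pt → ℝ, g = fun y => |fL (OE T (τ.E ω)) (bump n x)
    (cutf (OE T (τ.E ω)) s) (pot (OE T (τ.E ω)) (bump n x)) y| := ⟨_, rfl⟩
  have hg0 : ∀ y, 0 ≤ g y := fun y => by rw [hg]; exact abs_nonneg _
  have htot : ∑ y ∈ hO.toFinset, g y ≤ M := by rw [hg]; exact m1 _
  have hlast : 2 * (8 / (s : ℝ)) ^ β * ∑ y ∈ hO.toFinset, g y ≤ 2 * (8 / (s : ℝ)) ^ β * M :=
    mul_le_mul_of_nonneg_left htot (by positivity)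
  have hZ0 : 0 ≤ ∑ y ∈ hO.toFinset, (if y ∈ Reg ∧
      (dF T.faceSet y : ℝ) < CT * ρ0 ∧ ∃ v ∈ Vis, dn y v ≤ s ^ 2 then g y else 0) := by
    refine Finset.sum_nonneg fun y _ => ?_
    split_ifs <;> [exact hg0 y; exact le_rfl]
  have hAt0 : 0 ≤ M * ((ρ0 : ℝ) / κ) ^ γ' := by positivity
  have hA20 : 0 ≤ CT * (((N : ℝ) / κ) ^ γ * (N : ℝ) ^ (-(γ ^ 2 / 128))) := by positivity
  have hgoal : ∑ y ∈ hO.toFinset, (if y ∈ Reg ∧ ∃ v ∈ Vis, dn y v ≤ s ^ 2 then g y else 0) ≤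
      M * ((ρ0 : ℝ) / κ) ^ γ' + CT * (((N : ℝ) / κ) ^ γ * (N : ℝ) ^ (-(γ ^ 2 / 128))) +
      ((if MBad T R N κ s ρ0 (s ^ 2) C0 (32 ^ 4) γ CT ω then M else 0) +
        ∑ y ∈ hO.toFinset, (if y ∈ Reg ∧
          (dF T.faceSet y : ℝ) < CT * ρ0 ∧ ∃ v ∈ Vis, dn y v ≤ s ^ 2 then g y else 0)) := by
    by_cases hb : MBad T R N κ s ρ0 (s ^ 2) C0 (32 ^ 4) γ CT ω
    · rw [if_pos hb]
      have h1 : ∑ y ∈ hO.toFinset, (if y ∈ Reg ∧ ∃ v ∈ Vis, dn y v ≤ s ^ 2 then g y else 0) ≤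
          M := by
        refine (Finset.sum_le_sum fun y _ => ?_).trans htot
        split_ifs <;> [exact le_rfl; exact hg0 y]
      linarith
    · rw [if_neg hb, zero_add]
      have hnb : ¬ NBad T x N κ s ρ0 (s ^ 2) C0 (32 ^ 4) γ CT ω := fun h => hb ⟨x, hxR, h⟩
      have h2s : 2 * s ≤ s ^ 2 := by nlinarith
      have hDC : ((s ^ 2 : ℕ) : ℝ) < CT * ρ0 := by
        have h2 : ((s ^ 2 + 1 : ℕ) : ℝ) ≤ ρ0 := by exact_mod_cast hsρ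
        push_cast at h2 ⊢
        have h3 : (0 : ℝ) ≤ ρ0 := Nat.cast_nonneg _
        nlinarith
      have h1 := mic_det (M := M) (γ' := γ') hω hNew hnb hq hφ hχ hu (by omega) h2s hsρ hDC m2
        hVis (Reg := Reg) (fun y hy => ⟨mem_box_dn905.2 (hReg y hy).1, (hReg y hy).2⟩)
      rw [hg]
      exact h1
  rw [hg] at hgoal hlast
  linarith

open Classical in
/-- **expectation of the micro sum**, all parameters fixed -/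
theorem mic_ex {T : Temp} {xS : ℤ} {τ : Stop T.V xS}
    {R K n κ N s ρ0 : ℕ} {C0 γ γ' M CT β : ℝ} (hfit : Skel.Fits T R) (hn5 : 5 ≤ n)
    (hκ : κ = (K + 1) * n) (hM : 0 ≤ M) (hC0 : C0 = 16000000 * ((K : ℝ) + 1) ^ 2)
    (hmass : ∀ (O : Set Pt) (p : Pt) (χ φ u : Pt → ℝ), O.Finite → CPr O → p ∉ O →
      IsCut O s (32 ^ 4) χ → (∀ y, |φ y| ≤ dens C0 p κ y) → IsGreen O φ u →
      (∀ S : Finset Pt, ∑ x ∈ S, |fL O φ χ u x| ≤ M) ∧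
      (∀ z : Pt, ∑ x ∈ box z ρ0, |fL O φ χ u x| ≤ M * ((ρ0 : ℝ) / κ) ^ γ'))
    (hCT : 1 ≤ CT) (hs : 8 ≤ s) (hsρ : s ^ 2 + 1 ≤ ρ0) {S : Conf → Prop} {x : Conf → Pt}
    {Vis Reg : Conf → Set Pt} (hS : ∀ ω ∈ DD T.V, S ω → τ.New ω ∧
      n ≤ dF (OE T (τ.E ω)) (x ω) ∧ dF (OE T (τ.E ω)) (x ω) ≤ K * n ∧
      (∀ v ∈ Vis ω, v ∈ τ.L ω ∧ v ∉ τ.E ω) ∧
      ∀ y ∈ Reg ω, dn (x ω) y ≤ N ∧ (ρ0 : ℤ) + 1 < |y.1 - xS|) :
    Ex T.V (fun ω => if S ω then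
      (∑ y ∈ (oe_finite T (τ.E ω)).toFinset, (if y ∈ Reg ω ∧ ∃ v ∈ Vis ω, dn y v ≤ s ^ 2 then
        |gL T τ.E (fun ω => bump n (x ω)) s ω y| else 0) +
        2 * (8 / (s : ℝ)) ^ β * ∑ y ∈ (oe_finite T (τ.E ω)).toFinset,
          |gL T τ.E (fun ω => bump n (x ω)) s ω y|) else 0) ≤
      (2 * (8 / (s : ℝ)) ^ β * M + M * ((ρ0 : ℝ) / κ) ^ γ' +
        CT * (((N : ℝ) / κ) ^ γ * (N : ℝ) ^ (-(γ ^ 2 / 128)))) +
      M * Pr T.V (MBad T R N κ s ρ0 (s ^ 2) C0 (32 ^ 4) γ CT) +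
      Ex T.V (fun ω => if S ω then
        (∑ y ∈ (oe_finite T (τ.E ω)).toFinset, (if y ∈ Reg ω ∧
          (dF T.faceSet y : ℝ) < CT * ρ0 ∧ ∃ v ∈ Vis ω, dn y v ≤ s ^ 2 then
          |gL T τ.E (fun ω => bump n (x ω)) s ω y| else 0)) else 0) := by
  refine Ex_three (by positivity) ?_
  intro ω hω
  by_cases hSω : S ω
  · obtain ⟨hNew, hd1, hd2, hVis, hReg⟩ := hS ω hω hSω
    have h := mic_pt (β := β) (γ := γ) hω hfit hn5 hκ hM hC0 hmass hCT hs hsρ hNew hd1 hd2 hVis hReg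
    rw [if_pos hSω, if_pos hSω]
    exact h
  · have hB0 : 0 ≤ (if MBad T R N κ s ρ0 (s ^ 2) C0 (32 ^ 4) γ CT ω then M else 0) := by
      split_ifs <;> [exact hM; exact le_rfl]
    have hA0 : 0 ≤ 2 * (8 / (s : ℝ)) ^ β * M + M * ((ρ0 : ℝ) / κ) ^ γ' +
        CT * (((N : ℝ) / κ) ^ γ * (N : ℝ) ^ (-(γ ^ 2 / 128))) := by positivity
    rw [if_neg hSω, if_neg hSω]
    exact add_nonneg hA0 (add_nonneg hB0 le_rfl)

/-- numerical bounds of the error terms -/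
theorem mic_num {γ γ' a1 a β M CT0 c : ℝ} (hγ' : 0 < γ') (hγ1' : γ' ≤ 1)
    (hM : 0 ≤ M) (hCT0 : 0 < CT0) (hβ : 0 < β) {R s ρ0 κ N : ℕ} (hR : 1 ≤ R)
    (hs0 : 1 ≤ s) (hs : (R : ℝ) ^ a ≤ s)
    (k9 : (ρ0 : ℝ) / (κ : ℝ) ≤ 2 * (R : ℝ) ^ (-(a1 * γ ^ 2 / 2048)))
    (k10 : ((N : ℝ) / (κ : ℝ)) ^ γ * (N : ℝ) ^ (-(γ ^ 2 / 128)) ≤
      (R : ℝ) ^ (-(a1 * γ ^ 2 / 256)))
    (hc1 : c ≤ a1 * γ ^ 2 / 2048 * γ') (hc2 : c ≤ a1 * γ ^ 2 / 256) (hc3 : c ≤ a * β)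
    (hc4 : c ≤ 1) {P : ℝ} (hP : P ≤ 9 * CT0 * (R : ℝ) ^ (-(1 : ℝ))) :
    2 * (8 / (s : ℝ)) ^ β * M + M * ((ρ0 : ℝ) / κ) ^ γ' +
        (CT0 + 1) * (((N : ℝ) / κ) ^ γ * (N : ℝ) ^ (-(γ ^ 2 / 128))) + M * P ≤
      (2 * M + (CT0 + 1) + 2 * 8 ^ β * M + M * (9 * CT0)) * (R : ℝ) ^ (-c) := by
  have hR1r : (1 : ℝ) ≤ R := by exact_mod_cast hR
  have hR0 : (0 : ℝ) < R := by linarith
  have hs0' : (0 : ℝ) < s := by exact_mod_cast hs0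
  have hpow : ∀ b : ℝ, c ≤ b → (R : ℝ) ^ (-b) ≤ (R : ℝ) ^ (-c) := fun b hb =>
    Real.rpow_le_rpow_of_exponent_le hR1r (by linarith)
  have hRc : 0 < (R : ℝ) ^ (-c) := by positivity
  have hAl1 : 2 * (8 / (s : ℝ)) ^ β * M ≤ 2 * 8 ^ β * M * (R : ℝ) ^ (-c) := by
    have h1 : (8 / (s : ℝ)) ^ β ≤ 8 ^ β * (R : ℝ) ^ (-(a * β)) := by
      rw [Real.div_rpow (by norm_num) hs0'.le, div_eq_mul_inv, ← Real.rpow_neg hs0'.le]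
      refine mul_le_mul_of_nonneg_left ?_ (by positivity)
      calc (s : ℝ) ^ (-β) ≤ ((R : ℝ) ^ a) ^ (-β) :=
            Real.rpow_le_rpow_of_nonpos (by positivity) hs (by linarith)
        _ = (R : ℝ) ^ (-(a * β)) := by rw [← Real.rpow_mul hR0.le]; congr 1; ring
    have h2 := hpow _ hc3
    calc 2 * (8 / (s : ℝ)) ^ β * M = 2 * M * (8 / (s : ℝ)) ^ β := by ring
      _ ≤ 2 * M * (8 ^ β * (R : ℝ) ^ (-c)) := by
          refine mul_le_mul_of_nonneg_left (h1.trans ?_) (by positivity)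
          exact mul_le_mul_of_nonneg_left h2 (by positivity)
      _ = _ := by ring
  have hAt1 : M * ((ρ0 : ℝ) / κ) ^ γ' ≤ 2 * M * (R : ℝ) ^ (-c) := by
    have h1 : ((ρ0 : ℝ) / κ) ^ γ' ≤ (2 * (R : ℝ) ^ (-(a1 * γ ^ 2 / 2048))) ^ γ' :=
      Real.rpow_le_rpow (by positivity) k9 hγ'.le
    have h2 : (2 * (R : ℝ) ^ (-(a1 * γ ^ 2 / 2048))) ^ γ' ≤
        2 * (R : ℝ) ^ (-(a1 * γ ^ 2 / 2048 * γ')) := by
      rw [Real.mul_rpow (by norm_num) (by positivity), ← Real.rpow_mul hR0.le]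
      refine mul_le_mul ?_ (le_of_eq ?_) (by positivity) (by norm_num)
      · calc (2 : ℝ) ^ γ' ≤ 2 ^ (1 : ℝ) :=
            Real.rpow_le_rpow_of_exponent_le (by norm_num) hγ1'
          _ = 2 := Real.rpow_one _
      · congr 1
        ring
    have h3 := hpow _ hc1
    calc M * ((ρ0 : ℝ) / κ) ^ γ' ≤ M * (2 * (R : ℝ) ^ (-c)) :=
          mul_le_mul_of_nonneg_left (by linarith) hM
      _ = _ := by ring
  have hA21 : (CT0 + 1) * (((N : ℝ) / κ) ^ γ * (N : ℝ) ^ (-(γ ^ 2 / 128))) ≤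
      (CT0 + 1) * (R : ℝ) ^ (-c) :=
    mul_le_mul_of_nonneg_left (k10.trans (hpow _ hc2)) (by positivity)
  have h13 : M * P ≤ M * (9 * CT0) * (R : ℝ) ^ (-c) := by
    rw [mul_assoc]
    refine mul_le_mul_of_nonneg_left (hP.trans ?_) hM
    exact mul_le_mul_of_nonneg_left (hpow _ hc4) (by positivity)
  calc _ ≤ 2 * 8 ^ β * M * (R : ℝ) ^ (-c) + 2 * M * (R : ℝ) ^ (-c) + (CT0 + 1) * (R : ℝ) ^ (-c) +
        M * (9 * CT0) * (R : ℝ) ^ (-c) := by linarith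
    _ = _ := by ring

open Classical in
/-- **the micro sum, in expectation** (the zone next to the outside of the polygon is kept) -/
theorem mic_exp : ∃ γ : ℝ, 0 < γ ∧ γ ≤ 1 ∧ ∀ a1 : ℝ, 0 < a1 → ∃ am : ℝ, 0 < am ∧
    ∀ (a β : ℝ) (K : ℕ), 0 < a → a ≤ am → 0 < β → ∃ c : ℝ, 0 < c ∧ ∃ C : ℝ, 0 ≤ C ∧
    ∃ CT : ℝ, 0 < CT ∧ ∃ R0 : ℕ, 1 ≤ R0 ∧ ∀ R : ℕ, R0 ≤ R → ∀ T : Temp, Skel.Fits T R →
    ∀ n N s ρ0 : ℕ, (R : ℝ) ^ a1 ≤ n → n ≤ N → (N : ℝ) ≤ (n : ℝ) ^ (1 + γ ^ 2 / 4096) →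
    N ≤ K * R → s = ⌈(R : ℝ) ^ a⌉₊ → ρ0 = ⌈(((K + 1) * N : ℕ) : ℝ) ^ (1 - γ ^ 2 / 1024)⌉₊ →
    ∀ (xS : ℤ) (τ : Stop T.V xS) (S : Conf → Prop) (x : Conf → Pt) (Vis Reg : Conf → Set Pt),
    (∀ ω ∈ DD T.V, S ω → τ.New ω ∧ n ≤ dF (OE T (τ.E ω)) (x ω) ∧
      dF (OE T (τ.E ω)) (x ω) ≤ K * n ∧ (∀ v ∈ Vis ω, v ∈ τ.L ω ∧ v ∉ τ.E ω) ∧
      ∀ y ∈ Reg ω, dn (x ω) y ≤ N ∧ (ρ0 : ℤ) + 1 < |y.1 - xS|) →
    Ex T.V (fun ω => if S ω then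
      (∑ y ∈ (oe_finite T (τ.E ω)).toFinset, (if y ∈ Reg ω ∧ ∃ v ∈ Vis ω, dn y v ≤ s ^ 2 then
        |gL T τ.E (fun ω => bump n (x ω)) s ω y| else 0) +
        2 * (8 / (s : ℝ)) ^ β * ∑ y ∈ (oe_finite T (τ.E ω)).toFinset,
          |gL T τ.E (fun ω => bump n (x ω)) s ω y|) else 0) ≤ C * (R : ℝ) ^ (-c) +
    Ex T.V (fun ω => if S ω then
      (∑ y ∈ (oe_finite T (τ.E ω)).toFinset, (if y ∈ Reg ω ∧ (dF T.faceSet y : ℝ) < CT * ρ0 ∧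
        ∃ v ∈ Vis ω, dn y v ≤ s ^ 2 then
        |gL T τ.E (fun ω => bump n (x ω)) s ω y| else 0)) else 0) := by
  obtain ⟨γ, hγ, hγ1, htwo⟩ := two_err
  obtain ⟨γ', hγ', hγ1', hmass⟩ := mass_meso
  refine ⟨γ, hγ, hγ1, fun a1 ha1 => ⟨a1 * γ / 4096, by positivity, ?_⟩⟩
  intro a β K ha haa hβ
  obtain ⟨C0, hC0⟩ : ∃ C0 : ℝ, C0 = 16000000 * ((K : ℝ) + 1) ^ 2 := ⟨_, rfl⟩
  have hC00 : 0 ≤ C0 := by rw [hC0]; positivity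
  obtain ⟨CT0, hCT0, htwo⟩ := htwo (a1 / 2) 3 C0 (32 ^ 4) (by positivity) (by norm_num) hC00
  obtain ⟨M, hM, hmass⟩ := hmass C0 (32 ^ 4) hC00
  obtain ⟨R1, hR1, hsc⟩ := mic_scales hγ hγ1 ha1 ha haa K
  obtain ⟨R2, hR2⟩ : ∃ R2 : ℕ, ∀ R : ℕ, R2 ≤ R → (5 : ℝ) ≤ (R : ℝ) ^ a1 := by
    have h1 := ((tendsto_rpow_atTop ha1).comp tendsto_natCast_atTop_atTop).eventually
      (Filter.eventually_ge_atTop (5 : ℝ))
    obtain ⟨R2, hR2⟩ := Filter.eventually_atTop.1 h1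
    exact ⟨R2, hR2⟩
  refine ⟨min (min (a1 * γ ^ 2 / 2048 * γ') (a1 * γ ^ 2 / 256)) (min (a * β) 1),
    lt_min (lt_min (by positivity) (by positivity)) (lt_min (by positivity) one_pos),
    2 * M + (CT0 + 1) + 2 * 8 ^ β * M + M * (9 * CT0),
    by positivity, CT0 + 1, by positivity, max R1 R2, hR1.trans (le_max_left _ _), ?_⟩
  intro R hR T hfit n N s ρ0 hn hnN hN hNK hs hρ xS τ S x Vis Reg hS
  obtain ⟨k1, k2, k3, k4, k5, k6, k7, k8, k9, k10⟩ :=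
    hsc R n N s ρ0 ((le_max_left _ _).trans hR) hn hnN hN hs hρ
  have hn5 : 5 ≤ n := by
    have := (hR2 R ((le_max_right _ _).trans hR)).trans hn
    exact_mod_cast this
  have hRN : 1 ≤ R := hR1.trans ((le_max_left _ _).trans hR)
  obtain ⟨κ', hκ'⟩ : ∃ κ' : ℕ, κ' = (K + 1) * n := ⟨_, rfl⟩
  obtain ⟨N', hN'⟩ : ∃ N' : ℕ, N' = (K + 1) * N := ⟨_, rfl⟩
  obtain ⟨R', hR'⟩ : ∃ R' : ℕ, R' = (K + 1) * (K + 1) * R := ⟨_, rfl⟩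
  rw [← hR', ← hN'] at k4
  rw [← hN'] at k5 k6 k10 hρ
  rw [← hκ'] at k3 k8 k9 k10
  have hRR' : R ≤ R' := by rw [hR']; exact Nat.le_mul_of_pos_left _ (by positivity)
  have hN'R : N' ≤ R' := by
    rw [hN', hR', mul_assoc]
    exact Nat.mul_le_mul_left _ (hNK.trans (Nat.mul_le_mul_right _ (by omega)))
  have hκN : κ' ≤ N' := by rw [hκ', hN']; exact Nat.mul_le_mul_left _ hnN
  have hR0 : (0 : ℝ) < R := by exact_mod_cast hRN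
  have hs1 : 1 ≤ s := by omega
  have hκ1 : 1 ≤ κ' := by omega
  have hsρ : s ≤ ρ0 := by nlinarith
  have hNN' : N ≤ N' := by rw [hN']; exact Nat.le_mul_of_pos_left _ (by positivity)
  -- the bad event
  have hbadP : Pr T.V (MBad T R N' κ' s ρ0 (s ^ 2) C0 (32 ^ 4) γ (CT0 + 1)) ≤
      9 * CT0 * (R : ℝ) ^ (-(1 : ℝ)) := by
    refine (mbad_pr hRN (b := CT0 * (R : ℝ) ^ (-(3 : ℝ))) (by positivity) fun p0 => ?_).trans ?_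
    · refine (E.Pr_mono fun ω _ h => nbad_mono (CT := CT0) (by linarith) h).trans ?_
      refine (htwo R' T (hRN.trans hRR') (fits_mono hfit hRR') p0 N' κ' s ρ0 (s ^ 2) k4 hN'R hκN
        hs1 k3 k5 k6 (by rw [hρ]; exact Nat.le_ceil _)).trans ?_
      refine mul_le_mul_of_nonneg_left ?_ hCT0.le
      exact Real.rpow_le_rpow_of_nonpos hR0 (by exact_mod_cast hRR') (by norm_num)
    · have e : (R : ℝ) ^ 2 * (R : ℝ) ^ (-(3 : ℝ)) = (R : ℝ) ^ (-(1 : ℝ)) := by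
        have e1 : (R : ℝ) ^ 2 = (R : ℝ) ^ (2 : ℝ) := by
          rw [← Real.rpow_natCast]
          norm_num
        rw [e1, ← Real.rpow_add hR0]
        norm_num
      refine le_of_eq ?_
      calc 9 * (R : ℝ) ^ 2 * (CT0 * (R : ℝ) ^ (-(3 : ℝ))) =
          9 * CT0 * ((R : ℝ) ^ 2 * (R : ℝ) ^ (-(3 : ℝ))) := by ring
        _ = _ := by rw [e]
  have key := mic_ex (T := T) (τ := τ) (β := β) (γ := γ) (γ' := γ') hfit hn5 hκ' hM hC0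
    (fun O p χ φ u h1 h2 h3 h4 h5 h6 => by
      obtain ⟨m1, m2, -⟩ := hmass O p κ' s χ φ u h1 h2 h3 hκ1 hs1 k3 h4 h5 h6
      exact ⟨m1, fun z => m2 z ρ0 hsρ k8⟩) (CT := CT0 + 1) (by linarith) k2 k7
    (N := N') (S := S) (x := x) (Vis := Vis) (Reg := Reg) (fun ω hω hSω => by
      obtain ⟨h1, h2, h3, h4, h5⟩ := hS ω hω hSω
      exact ⟨h1, h2, h3, h4, fun y hy => ⟨(h5 y hy).1.trans hNN', (h5 y hy).2⟩⟩)
  refine key.trans ?_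
  refine add_le_add ?_ le_rfl
  exact mic_num hγ' hγ1' hM hCT0 hβ hRN hs1 (by rw [hs]; exact Nat.le_ceil _) k9 k10
    ((min_le_left _ _).trans (min_le_left _ _)) ((min_le_left _ _).trans (min_le_right _ _))
    ((min_le_right _ _).trans (min_le_left _ _)) ((min_le_right _ _).trans (min_le_right _ _))
    hbadP

end Vale.Agent.P155.NT801
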